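import Mathlib
import Vale.Agent.Lib.P243.R3.Defs

/-!
# P243 (r_3 > 1/3): compactness of the normalised family of convex bodies

* `isCompact_family`: the compact convex sets `K` with `Simp3 ⊆ K ⊆ Cube3` form a compact subset
  of `NonemptyCompacts E3` (Hausdorff metric).
* `sandwich`: two convex sets that contain a ball `ball c ρ` and are at Hausdorff distance less
  than `η ρ` are sandwiched by the homotheties of ratios `1 - η` and `1 + η` about `c`.
* `uniform_of_local`: a local-to-uniform principle over the normalised family.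
-/

namespace Vale.Agent.Lib.P243.R3.H77

open Set Metric TopologicalSpace

/-- Hausdorff closeness in `NonemptyCompacts`: points of the first set are close to the second. -/
lemma exists_near {K L : NonemptyCompacts E3} {r : ℝ} (h : dist K L < r) {x : E3}
    (hx : x ∈ (K : Set E3)) : ∃ y ∈ (L : Set E3), dist x y < r := by
  have hfin : hausdorffEDist (K : Set E3) (L : Set E3) ≠ ⊤ :=
    hausdorffEDist_ne_top_of_nonempty_of_bounded K.nonempty L.nonempty K.isCompact.isBounded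
      L.isCompact.isBounded
  exact exists_dist_lt_of_hausdorffDist_lt hx (by rwa [NonemptyCompacts.dist_eq] at h) hfin

/-- A point that is within every positive distance of a compact set belongs to it. -/
lemma mem_of_forall_near {K : NonemptyCompacts E3} {z : E3}
    (h : ∀ ε > 0, ∃ w ∈ (K : Set E3), dist z w < ε) : z ∈ (K : Set E3) := by
  have hcl : IsClosed (K : Set E3) := K.isCompact.isClosed
  rw [← hcl.closure_eq, Metric.mem_closure_iff]
  exact h

/-- Convexity is a closed condition for the Hausdorff metric. -/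
theorem isClosed_convex : IsClosed {K : NonemptyCompacts E3 | Convex ℝ (K : Set E3)} := by
  refine isClosed_of_closure_subset fun K hK => ?_
  rw [Metric.mem_closure_iff] at hK
  show Convex ℝ (K : Set E3)
  intro x hx y hy a b ha hb hab
  refine mem_of_forall_near fun ε hε => ?_
  obtain ⟨L, hL, hKL⟩ := hK (ε / 2) (by positivity)
  obtain ⟨x', hx', hxx'⟩ := exists_near hKL hx
  obtain ⟨y', hy', hyy'⟩ := exists_near hKL hy
  have hz' : a • x' + b • y' ∈ (L : Set E3) := hL hx' hy' ha hb hab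
  obtain ⟨w, hw, hzw⟩ := exists_near (by rwa [dist_comm] at hKL : dist L K < ε / 2) hz'
  refine ⟨w, hw, ?_⟩
  have h1 : dist (a • x + b • y) (a • x' + b • y') < ε / 2 := by
    rw [dist_eq_norm] at hxx' hyy' ⊢
    have e : a • x + b • y - (a • x' + b • y') = a • (x - x') + b • (y - y') := by
      simp only [smul_sub]; abel
    rw [e]
    calc ‖a • (x - x') + b • (y - y')‖ ≤ ‖a • (x - x')‖ + ‖b • (y - y')‖ := norm_add_le _ _
      _ = a * ‖x - x'‖ + b * ‖y - y'‖ := by
          rw [norm_smul, norm_smul, Real.norm_of_nonneg ha, Real.norm_of_nonneg hb]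
      _ < ε / 2 := by
          rcases eq_or_lt_of_le ha with h0 | h0
          · have hb1 : b = 1 := by linarith
            rw [← h0, hb1]; simpa using hyy'
          · have : a * ‖x - x'‖ < a * (ε / 2) := mul_lt_mul_of_pos_left hxx' h0
            have : b * ‖y - y'‖ ≤ b * (ε / 2) := mul_le_mul_of_nonneg_left hyy'.le hb
            have : a * (ε / 2) + b * (ε / 2) = ε / 2 := by rw [← add_mul, hab, one_mul]
            linarith
  calc dist (a • x + b • y) w ≤ dist (a • x + b • y) (a • x' + b • y') + dist (a • x' + b • y') w :=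
        dist_triangle _ _ _
    _ < ε / 2 + ε / 2 := add_lt_add h1 hzw
    _ = ε := by ring

/-- Containing a given set is a closed condition for the Hausdorff metric. -/
theorem isClosed_superset (S : Set E3) : IsClosed {K : NonemptyCompacts E3 | S ⊆ (K : Set E3)} := by
  refine isClosed_of_closure_subset fun K hK => ?_
  rw [Metric.mem_closure_iff] at hK
  show S ⊆ (K : Set E3)
  intro x hx
  refine mem_of_forall_near fun ε hε => ?_
  obtain ⟨L, hL, hKL⟩ := hK ε hε
  exact exists_near (by rwa [dist_comm] at hKL : dist L K < ε) (hL hx)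

/-- The cube `[-1, 1]^3` is compact. -/
theorem isCompact_Cube3 : IsCompact Cube3 := by
  have hcl : IsClosed Cube3 := by
    have : Cube3 = ⋂ i : Fin 3, {x : E3 | |x i| ≤ 1} := by
      ext x; simp [Cube3]
    rw [this]
    refine isClosed_iInter fun i => ?_
    have hc : Continuous fun x : E3 => |x i| :=
      continuous_abs.comp (PiLp.continuous_apply 2 (fun _ : Fin 3 => ℝ) i)
    exact isClosed_le hc continuous_const
  refine Metric.isCompact_of_isClosed_isBounded hcl ?_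
  refine (Metric.isBounded_closedBall (x := (0 : E3)) (r := 3)).subset fun x hx => ?_
  rw [mem_closedBall_zero_iff]
  have h1 : ‖x‖ ≤ ∑ i, ‖x i‖ := by
    have := EuclideanSpace.norm_eq x
    rw [this]
    refine Real.sqrt_le_iff.2 ⟨by positivity, ?_⟩
    have : ∑ i, ‖x i‖ ^ 2 ≤ (∑ i, ‖x i‖) ^ 2 :=
      Finset.sum_sq_le_sq_sum_of_nonneg fun i _ => norm_nonneg _
    exact this
  have h2 : ∑ i, ‖x i‖ ≤ 3 := by
    calc ∑ i, ‖x i‖ ≤ ∑ _i : Fin 3, (1 : ℝ) := Finset.sum_le_sum fun i _ => hx i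
      _ = 3 := by simp
  linarith

/-- The normalised family: compact convex sets between the simplex and the cube. -/
def Fam : Set (NonemptyCompacts E3) :=
  {K | Convex ℝ (K : Set E3) ∧ Simp3 ⊆ (K : Set E3) ∧ (K : Set E3) ⊆ Cube3}

/-- The normalised family is compact for the Hausdorff metric. -/
theorem isCompact_family : IsCompact Fam := by
  have h1 : IsCompact {K : NonemptyCompacts E3 | (K : Set E3) ⊆ Cube3} :=
    NonemptyCompacts.isCompact_subsets_of_isCompact isCompact_Cube3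
  have h2 : IsClosed ({K : NonemptyCompacts E3 | Convex ℝ (K : Set E3)} ∩
      {K : NonemptyCompacts E3 | Simp3 ⊆ (K : Set E3)}) :=
    isClosed_convex.inter (isClosed_superset Simp3)
  have h3 := h1.inter_left h2
  have e : Fam = ({K : NonemptyCompacts E3 | Convex ℝ (K : Set E3)} ∩
      {K : NonemptyCompacts E3 | Simp3 ⊆ (K : Set E3)}) ∩
      {K : NonemptyCompacts E3 | (K : Set E3) ⊆ Cube3} := by
    ext K
    exact ⟨fun ⟨a, b, c⟩ => ⟨⟨a, b⟩, c⟩, fun ⟨⟨a, b⟩, c⟩ => ⟨a, b, c⟩⟩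
  rw [e]
  exact h3

/-- Sandwich lemma, outer part: if `K` is within Hausdorff distance `η ρ` of the convex set `Ks`
and `Ks` contains the ball `ball c ρ`, then `K` lies in the homothetic copy of `Ks` of ratio
`1 + η` about `c`. -/
theorem sandwich_outer {K Ks : Set E3} (hKs : Convex ℝ Ks) {c : E3} {ρ η : ℝ} (hη : 0 < η)
    (hball : ball c ρ ⊆ Ks) (hnear : ∀ x ∈ K, ∃ y ∈ Ks, dist x y < η * ρ) :
    K ⊆ hom c (1 + η) '' Ks := by
  intro x hx
  obtain ⟨y, hy, hxy⟩ := hnear x hx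
  have h1 : (0 : ℝ) < 1 + η := by linarith
  have hu : c + (1 / η) • (x - y) ∈ Ks := by
    refine hball ?_
    rw [mem_ball, dist_eq_norm, add_sub_cancel_left, norm_smul, Real.norm_of_nonneg (by positivity),
      ← dist_eq_norm]
    rw [one_div, inv_mul_lt_iff₀ hη]
    exact hxy
  have hw : (1 / (1 + η)) • y + (η / (1 + η)) • (c + (1 / η) • (x - y)) ∈ Ks := by
    refine hKs hy hu (by positivity) (by positivity) ?_
    field_simp
  refine ⟨_, hw, ?_⟩
  simp only [hom]
  have hη' : η ≠ 0 := hη.ne'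
  have h1' : 1 + η ≠ 0 := h1.ne'
  ext i
  simp only [PiLp.add_apply, PiLp.smul_apply, PiLp.sub_apply, smul_eq_mul]
  field_simp
  ring

/-- Sandwich lemma, inner part: if the convex set `K` contains the ball `ball c ρ` and every
point of `Ks` is within distance `η ρ` of `K`, then the homothetic copy of `Ks` of ratio
`1 - η` about `c` lies in `K`. -/
theorem sandwich_inner {K Ks : Set E3} (hK : Convex ℝ K) {c : E3} {ρ η : ℝ} (hη : 0 < η)
    (hη1 : η < 1) (hball : ball c ρ ⊆ K) (hnear : ∀ y ∈ Ks, ∃ z ∈ K, dist y z < η * ρ) :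
    hom c (1 - η) '' Ks ⊆ K := by
  rintro _ ⟨y, hy, rfl⟩
  obtain ⟨z, hz, hyz⟩ := hnear y hy
  have h1 : (0 : ℝ) < 1 - η := by linarith
  have hρ : 0 < ρ := by
    by_contra h
    have : η * ρ ≤ 0 := mul_nonpos_of_nonneg_of_nonpos hη.le (not_lt.1 h)
    have := dist_nonneg (x := y) (y := z)
    linarith
  have hu : c + ((1 - η) / η) • (y - z) ∈ K := by
    refine hball ?_
    rw [mem_ball, dist_eq_norm, add_sub_cancel_left, norm_smul, Real.norm_of_nonneg (by positivity),
      ← dist_eq_norm]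
    rw [div_mul_eq_mul_div, div_lt_iff₀ hη]
    calc (1 - η) * dist y z ≤ 1 * dist y z := by gcongr; linarith
      _ = dist y z := one_mul _
      _ < η * ρ := hyz
      _ = ρ * η := mul_comm _ _
  have hw : (1 - η) • z + η • (c + ((1 - η) / η) • (y - z)) ∈ K :=
    hK hz hu h1.le hη.le (by ring)
  have e : hom c (1 - η) y = (1 - η) • z + η • (c + ((1 - η) / η) • (y - z)) := by
    simp only [hom]
    have hη' : η ≠ 0 := hη.ne'
    ext i
    simp only [PiLp.add_apply, PiLp.smul_apply, PiLp.sub_apply, smul_eq_mul]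
    field_simp
    ring
  rw [e]
  exact hw

/-- The centre of the ball inscribed in the simplex that we use. -/
noncomputable def c0 : E3 := WithLp.toLp 2 fun _ => (1 / 4 : ℝ)

/-- The ball of radius `1 / 12` about `c0` lies in the standard simplex. -/
theorem ball_subset_Simp3 : ball c0 (1 / 12) ⊆ Simp3 := by
  intro x hx
  rw [mem_ball, dist_eq_norm] at hx
  have hi : ∀ i, |x i - 1 / 4| < 1 / 12 := by
    intro i
    have h := PiLp.norm_apply_le (x - c0) i
    rw [Real.norm_eq_abs] at h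
    have e : (x - c0) i = x i - 1 / 4 := by simp [c0]
    rw [e] at h
    linarith
  have h0 := abs_lt.1 (hi 0)
  have h1 := abs_lt.1 (hi 1)
  have h2 := abs_lt.1 (hi 2)
  refine ⟨fun i => ?_, by linarith⟩
  have := abs_lt.1 (hi i)
  linarith

/-- Local-to-uniform principle over the normalised family.  `Φ K Θ` stands for
`∃ g, Good K g Θ`.  If every convex body has a constant below `3`, and constants transfer between
sandwiched bodies with the loss `1 / (1 - 12 η)`, then one constant below `3` serves all convex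
bodies between the simplex and the cube. -/
theorem uniform_of_local {Φ : Set E3 → ℝ → Prop}
    (hmono : ∀ (K : Set E3) (Θ Θ' : ℝ), Θ ≤ Θ' → Φ K Θ → Φ K Θ')
    (hlocal : ∀ K : Set E3, Body K → ∃ Θ : ℝ, Θ < 3 ∧ Φ K Θ)
    (htransfer : ∀ (Ks K : Set E3) (η Θ : ℝ), Body Ks → Body K → ball c0 (1 / 12) ⊆ Ks →
      ball c0 (1 / 12) ⊆ K → Ks ⊆ Cube3 → K ⊆ Cube3 → 0 < η → η ≤ 1 / 36 →
      hom c0 (1 - η) '' Ks ⊆ K → K ⊆ hom c0 (1 + η) '' Ks → Φ Ks Θ →
      Φ K (Θ / (1 - 12 * η))) :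
    ∃ Θ0 : ℝ, Θ0 < 3 ∧ ∀ K : Set E3, Body K → Simp3 ⊆ K → K ⊆ Cube3 → Φ K Θ0 := by
  classical
  -- every member of the family is a body
  have hbody : ∀ L : NonemptyCompacts E3, L ∈ Fam → Body (L : Set E3) := by
    intro L hL
    refine ⟨hL.1, L.isCompact, ⟨c0, ?_⟩⟩
    rw [mem_interior]
    exact ⟨ball c0 (1 / 12), ball_subset_Simp3.trans hL.2.1, isOpen_ball,
      mem_ball_self (by norm_num)⟩
  -- local data
  have hloc : ∀ L : NonemptyCompacts E3, ∃ Θ : ℝ, L ∈ Fam → (1 ≤ Θ ∧ Θ < 3 ∧ Φ (L : Set E3) Θ) := by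
    intro L
    by_cases hL : L ∈ Fam
    · obtain ⟨Θ, hΘ, hΦ⟩ := hlocal _ (hbody L hL)
      refine ⟨max Θ 1, fun _ => ⟨le_max_right _ _, max_lt hΘ (by norm_num), ?_⟩⟩
      exact hmono _ _ _ (le_max_left _ _) hΦ
    · exact ⟨1, fun h => absurd h hL⟩
  choose Θf hΘf using hloc
  -- radii
  set ηf : NonemptyCompacts E3 → ℝ := fun L => (3 - Θf L) / 72 with hηf
  have hcover : Fam ⊆ ⋃ L ∈ Fam, ball L (ηf L * (1 / 12)) := by
    intro L hL
    have h := hΘf L hL
    refine mem_iUnion₂.2 ⟨L, hL, mem_ball_self ?_⟩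
    have : 0 < ηf L := by simp only [hηf]; linarith [h.2.1]
    positivity
  obtain ⟨T, hTF, hTfin, hTcov⟩ := isCompact_family.elim_finite_subcover_image
    (fun L _ => isOpen_ball) hcover
  -- the uniform constant
  have hbound : ∀ L ∈ Fam, 6 * Θf L / (3 + Θf L) < 3 := by
    intro L hL
    have h := hΘf L hL
    rw [div_lt_iff₀ (by linarith [h.1])]
    linarith [h.2.1]
  obtain ⟨Θ0, hΘ0, hΘ0T⟩ : ∃ Θ0 : ℝ, Θ0 < 3 ∧ ∀ L ∈ T, 6 * Θf L / (3 + Θf L) ≤ Θ0 := by
    by_cases hTne : T.Nonempty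
    · have hTne' : hTfin.toFinset.Nonempty := by simpa using hTne
      obtain ⟨L0, hL0, hmax⟩ := hTfin.toFinset.exists_max_image
        (fun L => 6 * Θf L / (3 + Θf L)) hTne'
      refine ⟨6 * Θf L0 / (3 + Θf L0), hbound L0 (hTF (by simpa using hL0)), fun L hL => ?_⟩
      exact hmax L (by simpa using hL)
    · refine ⟨0, by norm_num, fun L hL => absurd ⟨L, hL⟩ hTne⟩
  refine ⟨Θ0, hΘ0, fun K hK hS hC => ?_⟩
  -- the body `K` as a member of the family
  obtain ⟨x0, hx0⟩ := hK.int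
  set Kc : NonemptyCompacts E3 := ⟨⟨K, hK.compact⟩, ⟨x0, interior_subset hx0⟩⟩ with hKc
  have hKF : Kc ∈ Fam := ⟨hK.conv, hS, hC⟩
  obtain ⟨L, hLT, hKL⟩ := mem_iUnion₂.1 (hTcov hKF)
  have hLF : L ∈ Fam := hTF hLT
  have h := hΘf L hLF
  have hη0 : 0 < ηf L := by simp only [hηf]; linarith [h.2.1]
  have hη1 : ηf L ≤ 1 / 36 := by simp only [hηf]; linarith [h.1]
  rw [mem_ball] at hKL
  have hin : hom c0 (1 - ηf L) '' (L : Set E3) ⊆ K := by
    refine sandwich_inner hK.conv hη0 (by linarith) (ball_subset_Simp3.trans hS) ?_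
    intro y hy
    exact exists_near (by rwa [dist_comm] at hKL : dist L Kc < ηf L * (1 / 12)) hy
  have hout : K ⊆ hom c0 (1 + ηf L) '' (L : Set E3) := by
    refine sandwich_outer hLF.1 hη0 (ball_subset_Simp3.trans hLF.2.1) ?_
    intro x hx
    exact exists_near hKL (show x ∈ (Kc : Set E3) from hx)
  have hΦ := htransfer (L : Set E3) K (ηf L) (Θf L) (hbody L hLF) hK
    (ball_subset_Simp3.trans hLF.2.1) (ball_subset_Simp3.trans hS) hLF.2.2 hC hη0 hη1 hin hout
    h.2.2
  refine hmono _ _ _ ?_ hΦ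
  have e : Θf L / (1 - 12 * ηf L) = 6 * Θf L / (3 + Θf L) := by
    simp only [hηf]
    have h3 : 3 + Θf L ≠ 0 := by linarith [h.1]
    have h4 : 1 - 12 * ((3 - Θf L) / 72) = (3 + Θf L) / 6 := by ring
    rw [h4, div_div_eq_mul_div, mul_comm]
  rw [e]
  exact hΘ0T L hLT

/-- The skeleton statement `M9d_exists_uniform`, from the skeleton statements `M6_exists_good`,
`M7_good_transfer` and `M7b_good_mono` taken as hypotheses. -/
theorem M9d_exists_uniform_of
    (M6 : ∀ {K : Set E3} (_ : Body K),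
      ∃ (g : E3 → ℝ) (Θ : ℝ), 0 < Θ ∧ Θ < 3 ∧ Good K g Θ)
    (M7 : ∀ {Ks K : Set E3} (_ : Body Ks) (_ : Body K) (c : E3) {η : ℝ} (_ : c ∈ Ks)
      (_ : 0 < η) (_ : η ≤ 1 / 24) (_ : hom c (1 - η) '' Ks ⊆ K)
      (_ : K ⊆ hom c (1 + η) '' Ks) {g : E3 → ℝ} {Θ : ℝ} (_ : 0 < Θ) (_ : Good Ks g Θ),
      Good K (fun x => g (hom c (1 + η)⁻¹ x)) (Θ / (1 - 12 * η)))
    (M7b : ∀ {K : Set E3} (_ : Body K) {g : E3 → ℝ} {Θ Θ' : ℝ} (_ : Good K g Θ)
      (_ : Θ ≤ Θ'), Good K g Θ') :
    ∃ Θ0 : ℝ, 0 < Θ0 ∧ Θ0 < 3 ∧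
      ∀ K : Set E3, Body K → Simp3 ⊆ K → K ⊆ Cube3 → ∃ g : E3 → ℝ, Good K g Θ0 := by
  have key := uniform_of_local
    (Φ := fun K Θ => 0 < Θ ∧ (Body K → ∃ g : E3 → ℝ, Good K g Θ))
    (fun K Θ Θ' hΘ h => ⟨lt_of_lt_of_le h.1 hΘ, fun hK => by
      obtain ⟨g, hg⟩ := h.2 hK
      exact ⟨g, M7b hK hg hΘ⟩⟩)
    (fun K hK => by
      obtain ⟨g, Θ, h0, h3, hG⟩ := M6 hK
      exact ⟨Θ, h3, h0, fun _ => ⟨g, hG⟩⟩)
    (fun Ks K η Θ hKs hK hbs _ _ _ hη0 hη1 h1 h2 h => by
      have hpos : (0 : ℝ) < 1 - 12 * η := by linarith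
      refine ⟨div_pos h.1 hpos, fun _ => ?_⟩
      obtain ⟨g, hg⟩ := h.2 hKs
      have hc : c0 ∈ Ks := hbs (mem_ball_self (by norm_num))
      exact ⟨_, M7 hKs hK c0 hc hη0 (by linarith) h1 h2 h.1 hg⟩)
  obtain ⟨Θ0, hΘ0, hU⟩ := key
  refine ⟨max Θ0 1, lt_of_lt_of_le one_pos (le_max_right _ _), max_lt hΘ0 (by norm_num), ?_⟩
  intro K hK hS hC
  obtain ⟨g, hg⟩ := (hU K hK hS hC).2 hK
  exact ⟨g, M7b hK hg (le_max_left _ _)⟩

end Vale.Agent.Lib.P243.R3.H77
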