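import Mathlib
import Vale.Agent.Lib.P243.R3.Defs
import Vale.Agent.Lib.P243.R3.helper25.M5

/-!
# P243, `r_3 > 1/3`: module M6 (every convex body has a calibration with constant below 3)

The skeleton statement `M6_exists_good` is proved from the skeleton statements `M1f`, `M1g`,
`M3a` and `M4` (skeleton version of 13:18, without the membership clause), taken as hypotheses,
and the landed module M5 (`helper25/M5.lean`).
-/

namespace Vale.Agent.Lib.P243.R3.H77

open MeasureTheory Set Vale.Agent.Lib.P243.R3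
open scoped Pointwise

lemma M6_Ahat_zero (K : Set E3) : Ahat K 0 = 0 := by
  unfold Ahat
  rw [segment_same, add_singleton]
  simp

lemma M6_avgSeg_affine {b : E3 → ℝ} (hb : Continuous b) (ε : ℝ) (p q : E3) :
    avgSeg (fun x => 1 + ε * (1 - b x)) p q = 1 + ε * (1 - avgSeg b p q) := by
  unfold avgSeg
  have hc : Continuous fun t : ℝ => b (p + t • (q - p)) := hb.comp (by fun_prop)
  have hi : IntervalIntegrable (fun t : ℝ => b (p + t • (q - p))) volume 0 1 :=
    hc.intervalIntegrable _ _
  have e : (fun t : ℝ => 1 + ε * (1 - b (p + t • (q - p)))) =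
      fun t => (1 + ε) - ε * b (p + t • (q - p)) := by
    funext t; ring
  rw [e, intervalIntegral.integral_sub intervalIntegrable_const (hi.const_mul ε),
    intervalIntegral.integral_const, intervalIntegral.integral_const_mul]
  simp only [sub_zero, one_smul]
  ring

lemma M6_setIntegral_affine {K : Set E3} (hK : IsCompact K) {b : E3 → ℝ} (hb : Continuous b)
    (ε : ℝ) :
    ∫ x in K, (1 + ε * (1 - b x)) = (1 + ε) * (volume K).toReal - ε * ∫ x in K, b x := by
  have hbi : IntegrableOn b K volume := hb.continuousOn.integrableOn_compact hK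
  have hci : IntegrableOn (fun _ : E3 => (1 + ε : ℝ)) K volume :=
    integrableOn_const hK.measure_lt_top.ne
  have e : (fun x : E3 => 1 + ε * (1 - b x)) = fun x => (1 + ε) - ε * b x := by
    funext x; ring
  rw [e, integral_sub hci (hbi.const_mul ε), setIntegral_const, integral_const_mul]
  simp only [Measure.real, smul_eq_mul]
  ring

/-- The skeleton statement `M6_exists_good`, from the skeleton statements `M1f_Ahat_continuous`,
`M1g_Ahat_nonneg`, `M3a_Ahat_le`, `M4_exists_hitting` taken as hypotheses. -/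
theorem M6_exists_good_of
    (M1f : ∀ {K : Set E3} (_ : Body K), Continuous (Ahat K))
    (M1g : ∀ {K : Set E3} (_ : IsCompact K) (w : E3), 0 ≤ Ahat K w)
    (M3a : ∀ {K : Set E3} (_ : Body K) {p q : E3} (_ : p ∈ K) (_ : q ∈ K),
      Ahat K (q - p) ≤ 3 * (volume K).toReal)
    (M4 : ∀ {K : Set E3} (_ : Body K),
      ∃ α β : Fin 3 → E3,
        ∀ p ∈ K, ∀ q ∈ K, p ≠ q → Ahat K (q - p) = 3 * (volume K).toReal →
          (p ∈ ⋃ j, segment ℝ (α j) (β j)) ∨ (q ∈ ⋃ j, segment ℝ (α j) (β j)))
    {K : Set E3} (hK : Body K) :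
    ∃ (g : E3 → ℝ) (Θ : ℝ), 0 < Θ ∧ Θ < 3 ∧ Good K g Θ := by
  classical
  -- the volume
  have hvolfin : volume K ≠ ⊤ := hK.compact.measure_lt_top.ne
  have hvolpos : 0 < (volume K).toReal := by
    refine ENNReal.toReal_pos ?_ hvolfin
    have h1 : 0 < volume (interior K) := isOpen_interior.measure_pos volume hK.int
    exact (lt_of_lt_of_le h1 (measure_mono interior_subset)).ne'
  set vol : ℝ := (volume K).toReal with hvol
  set M : ℝ := 3 * vol with hM
  have hMpos : 0 < M := by positivity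
  -- the hitting set
  obtain ⟨α, β, hhit⟩ := M4 hK
  set V : Set E3 := ⋃ j, segment ℝ (α j) (β j) with hV
  have hVne : V.Nonempty := ⟨α 0, mem_iUnion.2 ⟨0, left_mem_segment ℝ _ _⟩⟩
  -- the diameter
  obtain ⟨C0, hC0⟩ := Metric.isBounded_iff.1 hK.compact.isBounded
  set D : ℝ := max C0 1 with hD
  have hD1 : 1 ≤ D := le_max_right _ _
  have hDdist : ∀ p ∈ K, ∀ q ∈ K, dist p q ≤ D := fun p hp q hq =>
    (hC0 hp hq).trans (le_max_left _ _)
  -- the scale
  obtain ⟨C5, hC5, hbint⟩ := H25.M5c_bump_integral_le hK α β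
  set τ : ℝ := min 1 (vol / (4 * D * (C5 + 1))) with hτ
  have hτpos : 0 < τ := lt_min one_pos (by positivity)
  have hτ1 : τ ≤ 1 := min_le_left _ _
  have hτD : τ ≤ D := hτ1.trans hD1
  have hτ2 : τ ≤ vol / (4 * D * (C5 + 1)) := min_le_right _ _
  set β0 : ℝ := τ / (2 * D) with hβ0
  have hβpos : 0 < β0 := by positivity
  have hβle : β0 ≤ 1 / 2 := by
    rw [hβ0, div_le_iff₀ (by positivity)]
    nlinarith
  set b : E3 → ℝ := bump V τ with hb
  have hbc : Continuous b := H25.M5a_bump_continuous hVne hτpos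
  have hb01 : ∀ x, 0 ≤ b x ∧ b x ≤ 1 := fun x => H25.M5b_bump_mem V hτpos.le x
  have hbi : IntegrableOn b K volume := hbc.continuousOn.integrableOn_compact hK.compact
  have hIb0 : 0 ≤ ∫ x in K, b x := integral_nonneg fun x => (hb01 x).1
  have hIb : ∫ x in K, b x ≤ vol * (β0 / 2) := by
    refine (hbint τ hτpos hτ1).trans ?_
    have h1 : C5 * τ ^ 2 ≤ (C5 + 1) * τ * (vol / (4 * D * (C5 + 1))) := by
      have : C5 * τ ^ 2 ≤ (C5 + 1) * τ * τ := by nlinarith
      refine this.trans ?_
      exact mul_le_mul_of_nonneg_left hτ2 (by positivity)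
    have h2 : (C5 + 1) * τ * (vol / (4 * D * (C5 + 1))) = vol * (β0 / 2) := by
      rw [hβ0]
      field_simp
      ring
    linarith
  -- the average of `h = 1 - b` over `K`
  set a : ℝ := 1 - (∫ x in K, b x) / vol with ha
  have ha1 : a ≤ 1 := by
    have : 0 ≤ (∫ x in K, b x) / vol := div_nonneg hIb0 hvolpos.le
    linarith
  have ha2 : 1 - β0 / 2 ≤ a := by
    have : (∫ x in K, b x) / vol ≤ β0 / 2 := by
      rw [div_le_iff₀ hvolpos]; linarith
    linarith
  -- pairs
  set Dfun : E3 × E3 → ℝ := fun pq => (1 - avgSeg b pq.1 pq.2) - a + β0 / 4 with hDfun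
  have hDc : Continuous Dfun := by
    have h1 : Continuous fun pq : E3 × E3 => avgSeg b pq.1 pq.2 := H25.M5f_avgSeg_continuous hbc
    exact ((continuous_const.sub h1).sub continuous_const).add continuous_const
  set F : E3 × E3 → ℝ := fun pq => Ahat K (pq.2 - pq.1) with hF
  have hFc : Continuous F := (M1f hK).comp (continuous_snd.sub continuous_fst)
  set W : Set (E3 × E3) := (K ×ˢ K) ∩ {pq | 0 ≤ Dfun pq} with hW
  have hWc : IsCompact W :=
    (hK.compact.prod hK.compact).inter_right (isClosed_le continuous_const hDc)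
  have havg01 : ∀ p q : E3, 0 ≤ avgSeg b p q ∧ avgSeg b p q ≤ 1 := by
    intro p q
    unfold avgSeg
    have hc : Continuous fun t : ℝ => b (p + t • (q - p)) := hbc.comp (by fun_prop)
    constructor
    · exact intervalIntegral.integral_nonneg zero_le_one fun t _ => (hb01 _).1
    · have h1 : ∫ t in (0 : ℝ)..1, b (p + t • (q - p)) ≤ ∫ _t in (0 : ℝ)..1, (1 : ℝ) :=
        intervalIntegral.integral_mono_on zero_le_one (hc.intervalIntegrable _ _)
          intervalIntegrable_const fun t _ => (hb01 _).2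
      simpa using h1
  have hWlt : ∀ pq ∈ W, F pq < M := by
    rintro ⟨p, q⟩ ⟨⟨hp, hq⟩, hD0⟩
    have hp : p ∈ K := hp
    have hq : q ∈ K := hq
    have hle : Ahat K (q - p) ≤ M := M3a hK hp hq
    refine lt_of_le_of_ne hle fun heq => ?_
    have heq : Ahat K (q - p) = M := heq
    have hpq : p ≠ q := by
      rintro rfl
      rw [sub_self, M6_Ahat_zero] at heq
      linarith
    have hge : β0 ≤ avgSeg b p q := by
      rcases hhit p hp q hq hpq heq with h | h
      · exact H25.M5d_avg_bump_ge h q hτpos hτD (hDdist p hp q hq)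
      · rw [H25.M5e_avgSeg_symm]
        exact H25.M5d_avg_bump_ge h p hτpos hτD (hDdist q hq p hp)
    have hD0' : 0 ≤ (1 - avgSeg b p q) - a + β0 / 4 := hD0
    linarith
  obtain ⟨η0, hη0, hη0M, hWle⟩ : ∃ η0 : ℝ, 0 < η0 ∧ η0 ≤ M ∧ ∀ pq ∈ W, F pq ≤ M - η0 := by
    by_cases hWne : W.Nonempty
    · obtain ⟨pq0, hpq0, hmax⟩ := hWc.exists_isMaxOn hWne hFc.continuousOn
      refine ⟨M - F pq0, sub_pos.2 (hWlt pq0 hpq0), ?_, fun pq hpq => ?_⟩
      · have : 0 ≤ F pq0 := M1g hK.compact _
        linarith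
      · have := isMaxOn_iff.1 hmax pq hpq
        linarith
    · exact ⟨M, hMpos, le_rfl, fun pq hpq => absurd ⟨pq, hpq⟩ hWne⟩
  -- the density
  set ε : ℝ := η0 / (2 * M) with hε
  have hεpos : 0 < ε := by positivity
  have hεle : ε ≤ 1 / 2 := by
    rw [hε, div_le_iff₀ (by positivity)]
    linarith
  have hεM : ε * M = η0 / 2 := by
    rw [hε]; field_simp
  set g : E3 → ℝ := fun x => 1 + ε * (1 - b x) with hg
  have hgc : Continuous g := continuous_const.add (continuous_const.mul (continuous_const.sub hbc))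
  have hg12 : ∀ x, 1 ≤ g x ∧ g x ≤ 2 := by
    intro x
    have h1 := (hb01 x).1
    have h2 := (hb01 x).2
    constructor
    · have : 0 ≤ ε * (1 - b x) := mul_nonneg hεpos.le (by linarith)
      simp only [hg]; linarith
    · have : ε * (1 - b x) ≤ 1 / 2 * 1 := mul_le_mul hεle (by linarith) (by linarith) (by norm_num)
      simp only [hg]; linarith
  have hIg : ∫ x in K, g x = vol * (1 + ε * a) := by
    rw [hg, M6_setIntegral_affine hK.compact hbc ε, ha]
    field_simp
    ring
  refine ⟨g, max (3 * (1 - η0 / (2 * M))) (3 * (1 - ε * β0 / 8)), ?_, ?_, hgc, hg12, ?_⟩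
  · refine lt_of_lt_of_le ?_ (le_max_left _ _)
    have : η0 / (2 * M) ≤ 1 / 2 := by
      rw [div_le_iff₀ (by positivity)]; linarith
    linarith
  · refine max_lt ?_ ?_
    · have : 0 < η0 / (2 * M) := by positivity
      linarith
    · have : 0 < ε * β0 / 8 := by positivity
      linarith
  · intro p hp q hq
    have hA0 : 0 ≤ Ahat K (q - p) := M1g hK.compact _
    have hAM : Ahat K (q - p) ≤ M := M3a hK hp hq
    have hav := havg01 p q
    have hgavg : avgSeg g p q = 1 + ε * (1 - avgSeg b p q) := M6_avgSeg_affine hbc ε p q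
    rw [hgavg, hIg]
    have ha0 : 0 ≤ a := by linarith
    have hIpos : 0 < vol * (1 + ε * a) := by positivity
    by_cases hpqW : 0 ≤ Dfun (p, q)
    · -- on `W`
      have hW1 : F (p, q) ≤ M - η0 := hWle (p, q) ⟨⟨hp, hq⟩, hpqW⟩
      have hW2 : Ahat K (q - p) ≤ M - η0 := hW1
      have h1 : (1 + ε * (1 - avgSeg b p q)) * Ahat K (q - p) ≤ (1 + ε) * (M - η0) := by
        have hfac : 1 + ε * (1 - avgSeg b p q) ≤ 1 + ε := by
          have : ε * (1 - avgSeg b p q) ≤ ε * 1 :=
            mul_le_mul_of_nonneg_left (by linarith [hav.1]) hεpos.le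
          linarith
        have hfac0 : 0 ≤ 1 + ε := by positivity
        calc (1 + ε * (1 - avgSeg b p q)) * Ahat K (q - p) ≤ (1 + ε) * Ahat K (q - p) :=
              mul_le_mul_of_nonneg_right hfac hA0
          _ ≤ (1 + ε) * (M - η0) := mul_le_mul_of_nonneg_left hW2 hfac0
      have h2 : (1 + ε) * (M - η0) ≤ M - η0 / 2 := by
        have : (1 + ε) * (M - η0) = M - η0 + ε * M - ε * η0 := by ring
        have h3 : 0 ≤ ε * η0 := by positivity
        linarith
      have h3 : M - η0 / 2 = 3 * (1 - η0 / (2 * M)) * vol := by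
        rw [hM]; field_simp
      have h4 : 3 * (1 - η0 / (2 * M)) * vol ≤
          max (3 * (1 - η0 / (2 * M))) (3 * (1 - ε * β0 / 8)) * (vol * (1 + ε * a)) := by
        have hΘ1 : 0 ≤ 3 * (1 - η0 / (2 * M)) := by
          have : η0 / (2 * M) ≤ 1 / 2 := by
            rw [div_le_iff₀ (by positivity)]; linarith
          linarith
        have hv : vol ≤ vol * (1 + ε * a) := by
          have : 0 ≤ vol * (ε * a) := by positivity
          linarith
        calc 3 * (1 - η0 / (2 * M)) * vol ≤ 3 * (1 - η0 / (2 * M)) * (vol * (1 + ε * a)) :=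
              mul_le_mul_of_nonneg_left hv hΘ1
          _ ≤ _ := mul_le_mul_of_nonneg_right (le_max_left _ _) hIpos.le
      linarith
    · -- off `W`
      have hlt : (1 - avgSeg b p q) - a + β0 / 4 < 0 := not_le.1 hpqW
      have hfac : 1 + ε * (1 - avgSeg b p q) ≤ 1 + ε * a - ε * β0 / 4 := by
        have : ε * (1 - avgSeg b p q) ≤ ε * (a - β0 / 4) :=
          mul_le_mul_of_nonneg_left (by linarith) hεpos.le
        linarith
      have hfac0 : 0 ≤ 1 + ε * a - ε * β0 / 4 := by
        have h1 : ε * β0 / 4 ≤ 1 / 2 * (1 / 2) / 4 := by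
          have : ε * β0 ≤ 1 / 2 * (1 / 2) := mul_le_mul hεle hβle hβpos.le (by norm_num)
          linarith
        have h2 : 0 ≤ ε * a := by positivity
        linarith
      have h1 : (1 + ε * (1 - avgSeg b p q)) * Ahat K (q - p) ≤ (1 + ε * a - ε * β0 / 4) * M := by
        calc (1 + ε * (1 - avgSeg b p q)) * Ahat K (q - p)
            ≤ (1 + ε * a - ε * β0 / 4) * Ahat K (q - p) := mul_le_mul_of_nonneg_right hfac hA0
          _ ≤ (1 + ε * a - ε * β0 / 4) * M := mul_le_mul_of_nonneg_left hAM hfac0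
      have h2 : (1 + ε * a - ε * β0 / 4) * M ≤ 3 * (1 - ε * β0 / 8) * (vol * (1 + ε * a)) := by
        have h3 : 3 * (1 - ε * β0 / 8) * (vol * (1 + ε * a)) =
            (1 + ε * a - ε * β0 / 8 * (1 + ε * a)) * M := by rw [hM]; ring
        rw [h3]
        refine mul_le_mul_of_nonneg_right ?_ hMpos.le
        have h4 : 1 + ε * a ≤ 2 := by
          have : ε * a ≤ 1 / 2 * 1 := mul_le_mul hεle ha1 ha0 (by norm_num)
          linarith
        have h5 : ε * β0 / 8 * (1 + ε * a) ≤ ε * β0 / 8 * 2 :=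
          mul_le_mul_of_nonneg_left h4 (by positivity)
        linarith
      have h3 : 3 * (1 - ε * β0 / 8) * (vol * (1 + ε * a)) ≤
          max (3 * (1 - η0 / (2 * M))) (3 * (1 - ε * β0 / 8)) * (vol * (1 + ε * a)) :=
        mul_le_mul_of_nonneg_right (le_max_right _ _) hIpos.le
      linarith

end Vale.Agent.Lib.P243.R3.H77
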