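import Mathlib
import Vale.Agent.Lib.P243.Defs
import Vale.Agent.Lib.P243.R3.Defs
import Vale.Agent.Lib.P243.R3.M1
import Vale.Agent.Lib.P243.R3.M2
import Vale.Agent.Lib.P243.R3.M3
import Vale.Agent.Lib.P243.R3.M4
import Vale.Agent.Lib.P243.R3.M7
import Vale.Agent.Lib.P243.R3.M7b
import Vale.Agent.Lib.P243.R3.M8a
import Vale.Agent.Lib.P243.R3.M8bc
import Vale.Agent.Lib.P243.R3.helper77.M6
import Vale.Agent.Lib.P243.R3.helper77.Compact

/-!
# P243, `r_3 > 1/3`: assembly of the modules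

`A77_universal` is the skeleton statement `M10_universal`: there is `ε > 0` such that every finite
covering of every convex body of Euclidean 3-space by cylinders has directionwise relative area
at least `1/3 + ε`.  The modules M1, M2, M3, M4, M7, M7b, M8 are taken from the files of the
same names, M6 and M9d from `helper77/M6.lean` and `helper77/Compact.lean`.
-/

namespace Vale.Agent.Lib.P243.R3.H77

open MeasureTheory Set Vale.Agent.Lib.P243 Vale.Agent.Lib.P243.R3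
open scoped Pointwise

/-- M6: every convex body has a calibration with constant below 3. -/
theorem A77_M6 {K : Set E3} (hK : Body K) :
    ∃ (g : E3 → ℝ) (Θ : ℝ), 0 < Θ ∧ Θ < 3 ∧ Good K g Θ :=
  M6_exists_good_of (fun hK => M1f_Ahat_continuous hK) (fun hKc w => M1g_Ahat_nonneg hKc w)
    (fun hK _ _ hp hq => M3a_Ahat_le hK hp hq) (fun hK => M4_exists_hitting hK) hK

/-- M9d: one constant below 3 for all normalised bodies. -/
theorem A77_M9d :
    ∃ Θ0 : ℝ, 0 < Θ0 ∧ Θ0 < 3 ∧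
      ∀ K : Set E3, Body K → Simp3 ⊆ K → K ⊆ Cube3 → ∃ g : E3 → ℝ, Good K g Θ0 :=
  M9d_exists_uniform_of (fun hK => A77_M6 hK)
    (fun hKs hK c _ hc hη0 hη h1 h2 _ _ hΘ hG => M7_good_transfer hKs hK c hc hη0 hη h1 h2 hΘ hG)
    (fun hK _ _ _ hG h => M7b_good_mono hK hG h)

/-- The universal bound `r_3 > 1/3`. -/
theorem A77_universal :
    ∃ ε : ℝ, 0 < ε ∧ ∀ (K : Set E3), Convex ℝ K → IsCompact K → (interior K).Nonempty →
      ∀ (m : ℕ) (a b : Fin m → E3), (∀ i, OrthoPair (a i) (b i)) →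
      ∀ S : Fin m → Set (ℝ × ℝ), K ⊆ ⋃ i, planeCoords (a i) (b i) ⁻¹' S i →
        ENNReal.ofReal (1 / 3 + ε)
          ≤ ∑ i, volume (S i) / volume (planeCoords (a i) (b i) '' K) := by
  obtain ⟨Θ0, h0, h3, hU⟩ := A77_M9d
  refine ⟨1 / Θ0 - 1 / 3, ?_, ?_⟩
  · have : (1 : ℝ) / 3 < 1 / Θ0 := one_div_lt_one_div_of_lt h0 h3
    linarith
  intro K hKv hKc hKi m a b hab S hcov
  have hK : Body K := ⟨hKv, hKc, hKi⟩
  obtain ⟨L, v, hs, hc⟩ := M8a_exists_normalizing hK
  obtain ⟨g, hg⟩ := hU _ (M8b_body_aff L v hK) hs hc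
  have hG := M8c_good_of_aff L v hK hg
  have := M2_good_cover hK h0 hG a b hab S hcov
  have e : (1 : ℝ) / 3 + (1 / Θ0 - 1 / 3) = 1 / Θ0 := by ring
  rw [e]
  exact this

end Vale.Agent.Lib.P243.R3.H77
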